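import Mathlib
import Vale.Agent.P319.Ev.IA
import Vale.Agent.P319.Ev.QLC
import Vale.Agent.P319.SC.QL.QIface

/-! P319, block SC, number theory: `ia2`. -/

namespace Vale.Agent.P319.SC.QL.H884

open Vale.Agent.P319.Ev Vale.Agent.P319.Ev.IA DirichletCharacter

/-- the main term -/
theorem main_term {d : ℝ} (hd : 0 < d) (hd1 : d ≤ 1) {z : ℂ} (hre : z.re < 1) {e : ℝ}
    (he : 0 ≤ e) (hez : e ≤ ‖z - 1‖) (he1 : e ≤ 1) (k : ℕ) (hk : 1 ≤ k) :
    (‖((1 + d : ℝ) : ℂ) - z‖ ^ (k + 1))⁻¹ ≤ (d ^ (k + 1))⁻¹ * (1 - e ^ 2 / 2) := by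
  set w := ‖((1 + d : ℝ) : ℂ) - z‖ with hw
  have h4 : w ^ 2 = ‖z - 1‖ ^ 2 + d ^ 2 + 2 * d * (1 - z.re) := by
    rw [hw, Complex.sq_norm, Complex.sq_norm, Complex.normSq_apply, Complex.normSq_apply]
    simp only [Complex.sub_re, Complex.sub_im, Complex.ofReal_re, Complex.ofReal_im,
      Complex.one_re, Complex.one_im]
    ring
  have h5 : 0 ≤ 2 * d * (1 - z.re) := by
    have : 0 ≤ 1 - z.re := by linarith
    positivity
  have h6 : e ^ 2 ≤ ‖z - 1‖ ^ 2 := by gcongr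
  have h7 : d ^ 2 * (1 + e ^ 2) ≤ w ^ 2 := by
    have : d ^ 2 * e ^ 2 ≤ 1 * e ^ 2 := by
      apply mul_le_mul_of_nonneg_right _ (by positivity)
      nlinarith
    nlinarith
  have hw0 : 0 ≤ w := norm_nonneg _
  have hdw : d ≤ w := by
    refine abs_le_of_sq_le_sq' ?_ hw0 |>.2
    nlinarith [sq_nonneg (d * e)]
  obtain ⟨j, rfl⟩ : ∃ j, k = j + 1 := ⟨k - 1, by omega⟩
  have h8 : d ^ (j + 1 + 1) * (1 + e ^ 2) ≤ w ^ (j + 1 + 1) := by
    calc d ^ (j + 1 + 1) * (1 + e ^ 2) = d ^ j * (d ^ 2 * (1 + e ^ 2)) := by ring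
      _ ≤ w ^ j * w ^ 2 := by
          apply mul_le_mul (pow_le_pow_left₀ hd.le hdw j) h7 (by positivity) (by positivity)
      _ = w ^ (j + 1 + 1) := by ring
  have h9 : (w ^ (j + 1 + 1))⁻¹ ≤ (d ^ (j + 1 + 1) * (1 + e ^ 2))⁻¹ := by
    gcongr
  refine h9.trans ?_
  rw [mul_inv]
  apply mul_le_mul_of_nonneg_left _ (by positivity)
  rw [inv_le_iff_one_le_mul₀ (by positivity)]
  have : e ^ 2 ≤ 1 := by nlinarith
  nlinarith [sq_nonneg e]

/-- the gain from a small zero-free disc -/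
theorem gain_term {d ρ : ℝ} (hd : 0 < d) (hρ : 0 < ρ) (hρd : ρ ≤ d) (k : ℕ) :
    ((k : ℝ) + 1) ^ 2 / Real.sqrt (d ^ 2 + ρ ^ 2) ^ (k + 1) ≤
      (d ^ (k + 1))⁻¹ * (128 / ((ρ / d) ^ 2) ^ 2 * Real.exp (-(((k : ℝ) + 1) * (ρ / d) ^ 2 / 8))) := by
  set u : ℝ := (ρ / d) ^ 2 with hu
  have hu0 : 0 < u := by positivity
  have hu1 : u ≤ 1 := by
    rw [hu]
    have : ρ / d ≤ 1 := by rw [div_le_one hd]; exact hρd
    have h0 : 0 ≤ ρ / d := by positivity
    nlinarith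
  have h1 : Real.exp (u / 2) ≤ 1 + u := by
    have h2 := Real.abs_exp_sub_one_le (x := u / 2) (by rw [abs_of_pos (by positivity)]; linarith)
    rw [abs_of_pos (show 0 < u / 2 by positivity)] at h2
    have h3 := le_abs_self (Real.exp (u / 2) - 1)
    linarith
  have h2 : d * Real.exp (u / 4) ≤ Real.sqrt (d ^ 2 + ρ ^ 2) := by
    apply Real.le_sqrt_of_sq_le
    have h3 : ρ ^ 2 = d ^ 2 * u := by
      rw [hu]; field_simp
    rw [h3, mul_pow, ← Real.exp_nat_mul]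
    have h4 : ((2 : ℕ) : ℝ) * (u / 4) = u / 2 := by push_cast; ring
    rw [h4]
    have : d ^ 2 * Real.exp (u / 2) ≤ d ^ 2 * (1 + u) := by gcongr
    linarith
  set K : ℝ := (k : ℝ) + 1 with hK
  have hK0 : 0 < K := by positivity
  have h3 : d ^ (k + 1) * Real.exp (K * u / 4) ≤ Real.sqrt (d ^ 2 + ρ ^ 2) ^ (k + 1) := by
    have h4 := pow_le_pow_left₀ (by positivity) h2 (k + 1)
    rw [mul_pow, ← Real.exp_nat_mul] at h4
    refine le_trans (le_of_eq ?_) h4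
    congr 2
    rw [hK]; push_cast; ring
  have h4 : K ^ 2 * Real.exp (-(K * u / 8)) ≤ 128 / u ^ 2 := by
    have h5 := Real.quadratic_le_exp_of_nonneg (x := K * u / 8) (by positivity)
    rw [Real.exp_neg, le_div_iff₀ (by positivity)]
    have h6 : (K * u / 8) ^ 2 / 2 ≤ Real.exp (K * u / 8) := by
      have : 0 ≤ K * u / 8 := by positivity
      linarith
    have h7 := Real.exp_pos (K * u / 8)
    have h8 : K ^ 2 * u ^ 2 ≤ 128 * Real.exp (K * u / 8) := by nlinarith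
    calc K ^ 2 * (Real.exp (K * u / 8))⁻¹ * u ^ 2 = K ^ 2 * u ^ 2 * (Real.exp (K * u / 8))⁻¹ := by
          ring
      _ ≤ 128 * Real.exp (K * u / 8) * (Real.exp (K * u / 8))⁻¹ := by gcongr
      _ = 128 := by field_simp
  have h5 : Real.exp (-(K * u / 4)) = Real.exp (-(K * u / 8)) * Real.exp (-(K * u / 8)) := by
    rw [← Real.exp_add]; congr 1; ring
  calc K ^ 2 / Real.sqrt (d ^ 2 + ρ ^ 2) ^ (k + 1) ≤ K ^ 2 / (d ^ (k + 1) * Real.exp (K * u / 4)) := by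
        gcongr
    _ = (d ^ (k + 1))⁻¹ * (K ^ 2 * Real.exp (-(K * u / 4))) := by
        rw [Real.exp_neg]; field_simp
    _ = (d ^ (k + 1))⁻¹ * ((K ^ 2 * Real.exp (-(K * u / 8))) * Real.exp (-(K * u / 8))) := by
        rw [h5]; ring
    _ ≤ _ := by gcongr

theorem LL_tendsto : Filter.Tendsto LL Filter.atTop Filter.atTop := by
  unfold LL
  exact Filter.tendsto_atTop_add_const_left _ _
    (Real.tendsto_log_atTop.comp tendsto_natCast_atTop_atTop)

theorem lam_tendsto : Filter.Tendsto lam Filter.atTop Filter.atTop := by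
  unfold lam
  exact Filter.tendsto_atTop_add_const_left _ _ (Real.tendsto_log_atTop.comp LL_tendsto)

/-- `exp (y / (1 + log y)^2)` beats all powers of `y` -/
theorem ev_exp (b c : ℝ) : ∀ᶠ y : ℝ in Filter.atTop,
    c * y ^ b * (1 + Real.log y) ^ 4 ≤ Real.exp (y / (1 + Real.log y) ^ 2) ∧
      1 + Real.log y ≤ y ^ (1 / 4 : ℝ) := by
  have h1 : ∀ᶠ y : ℝ in Filter.atTop, 1 + Real.log y ≤ y ^ (1 / 4 : ℝ) := by
    have h := (isLittleO_log_rpow_atTop (show (0 : ℝ) < 1 / 4 by norm_num)).bound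
      (show (0 : ℝ) < 1 / 2 by norm_num)
    have h2 : ∀ᶠ y : ℝ in Filter.atTop, (2 : ℝ) ≤ y ^ (1 / 4 : ℝ) :=
      (tendsto_rpow_atTop (show (0 : ℝ) < 1 / 4 by norm_num)).eventually_ge_atTop 2
    filter_upwards [h, h2, Filter.eventually_ge_atTop (1 : ℝ)] with y hy hy2 hy1
    rw [Real.norm_of_nonneg (Real.log_nonneg hy1), Real.norm_of_nonneg (by positivity)] at hy
    linarith
  have h2 : ∀ᶠ t : ℝ in Filter.atTop, |c| * t ^ (2 * b + 2) ≤ Real.exp t := by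
    have h := (isLittleO_rpow_exp_pos_mul_atTop (2 * b + 2) (show (0 : ℝ) < 1 by norm_num)).bound
      (show (0 : ℝ) < 1 / (|c| + 1) by positivity)
    filter_upwards [h, Filter.eventually_ge_atTop (0 : ℝ)] with t ht ht0
    rw [Real.norm_of_nonneg (by positivity), one_mul, Real.norm_of_nonneg (by positivity)] at ht
    have h3 : (|c| + 1) * t ^ (2 * b + 2) ≤ Real.exp t := by
      rw [div_mul_eq_mul_div, one_mul, le_div_iff₀ (by positivity)] at ht
      linarith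
    have h4 : 0 ≤ t ^ (2 * b + 2) := by positivity
    linarith
  have h3 : Filter.Tendsto (fun y : ℝ => y ^ (1 / 2 : ℝ)) Filter.atTop Filter.atTop :=
    tendsto_rpow_atTop (by norm_num)
  filter_upwards [h1, h3.eventually h2, Filter.eventually_ge_atTop (1 : ℝ)] with y hy1 hy2 hy3
  refine ⟨?_, hy1⟩
  have hl : 0 ≤ Real.log y := Real.log_nonneg hy3
  have hy0 : 0 < y := by linarith
  have h4 : (1 + Real.log y) ^ 4 ≤ y := by
    calc (1 + Real.log y) ^ 4 ≤ (y ^ (1 / 4 : ℝ)) ^ 4 := by gcongr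
      _ = y := by rw [← Real.rpow_natCast, ← Real.rpow_mul hy0.le]; norm_num
  have h5 : y ^ (1 / 2 : ℝ) ≤ y / (1 + Real.log y) ^ 2 := by
    rw [le_div_iff₀ (by positivity)]
    calc y ^ (1 / 2 : ℝ) * (1 + Real.log y) ^ 2 ≤ y ^ (1 / 2 : ℝ) * (y ^ (1 / 4 : ℝ)) ^ 2 := by gcongr
      _ = y := by
        rw [← Real.rpow_natCast, ← Real.rpow_mul hy0.le, ← Real.rpow_add hy0]; norm_num
  calc c * y ^ b * (1 + Real.log y) ^ 4 ≤ |c| * y ^ b * y := by
        have := le_abs_self c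
        gcongr
    _ = |c| * (y ^ (1 / 2 : ℝ)) ^ (2 * b + 2) := by
        rw [← Real.rpow_mul hy0.le, mul_assoc]
        congr 1
        nth_rewrite 2 [← Real.rpow_one y]
        rw [← Real.rpow_add hy0]
        congr 1
        ring
    _ ≤ Real.exp (y ^ (1 / 2 : ℝ)) := hy2
    _ ≤ _ := Real.exp_le_exp.2 h5

/-- all conditions on `r` -/
theorem ev_all (a c₁ B D : ℝ) (ha : 0 < a) : ∀ᶠ r : ℕ in Filter.atTop,
    1 ≤ r ∧ c₁ ≤ a * lam r ∧ a * lam r / LL r ≤ 1 / 16 ∧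
    D * LL r ^ (B + 1) * lam r ^ 4 ≤ Real.exp (LL r / lam r ^ 2) ∧ D ≤ Real.exp (LL r) ∧
      2 ≤ LL r := by
  have h1 := lam_tendsto.eventually_ge_atTop (c₁ / a)
  have h2 := LL_tendsto.eventually (ev_exp (B + 1) D)
  have h3 := LL_tendsto.eventually_ge_atTop ((16 * a) ^ 2 + 2 + |D|)
  filter_upwards [h1, h2, h3, Filter.eventually_ge_atTop 1] with r h1 h2 h3 h4
  have hLL := one_le_LL h4
  refine ⟨h4, ?_, ?_, h2.1, ?_, ?_⟩
  · rw [div_le_iff₀ ha] at h1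
    linarith
  · have h5 : lam r ≤ LL r ^ (1 / 4 : ℝ) := h2.2
    have h6 : LL r ^ (1 / 4 : ℝ) ≤ LL r ^ (1 / 2 : ℝ) :=
      Real.rpow_le_rpow_of_exponent_le hLL (by norm_num)
    have h7 : 16 * a ≤ LL r ^ (1 / 2 : ℝ) := by
      rw [← Real.sqrt_eq_rpow]
      apply Real.le_sqrt_of_sq_le
      have := abs_nonneg D
      linarith
    have h8 : LL r ^ (1 / 2 : ℝ) * LL r ^ (1 / 2 : ℝ) = LL r := by
      rw [← Real.rpow_add (by linarith)]; norm_num
    rw [div_le_iff₀ (by linarith)]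
    have h9 : 0 ≤ LL r ^ (1 / 2 : ℝ) := by positivity
    have h10 : 16 * a * lam r ≤ LL r ^ (1 / 2 : ℝ) * LL r ^ (1 / 2 : ℝ) :=
      mul_le_mul h7 (h5.trans h6) (by
        have := Real.log_nonneg hLL
        unfold lam; linarith) h9
    linarith
  · have h5 := Real.add_one_le_exp (LL r)
    have h6 := le_abs_self D
    have : 0 ≤ (16 * a) ^ 2 := by positivity
    linarith
  · have := abs_nonneg D
    have : 0 ≤ (16 * a) ^ 2 := by positivity
    linarith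

theorem four_fifths {k : ℕ} {C y : ℝ} (hC : 50 ≤ C) (hy : 0 ≤ y) (hk : C * y ≤ k) :
    ((4 : ℝ) / 5) ^ (k + 1) ≤ Real.exp (-(10 * y)) := by
  have h1 : (4 : ℝ) / 5 ≤ Real.exp (-(1 / 5)) := by
    have := Real.add_one_le_exp (-(1 / 5 : ℝ))
    linarith
  calc ((4 : ℝ) / 5) ^ (k + 1) ≤ (Real.exp (-(1 / 5))) ^ (k + 1) := by gcongr
    _ = Real.exp (((k + 1 : ℕ) : ℝ) * (-(1 / 5))) := by rw [← Real.exp_nat_mul]
    _ ≤ _ := by
        apply Real.exp_le_exp.2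
        push_cast
        nlinarith

theorem rpow_neg_succ' {x : ℝ} (hx : 0 < x) (k : ℕ) : x ^ (-((k : ℝ) + 1)) = (x ^ (k + 1))⁻¹ := by
  have : (k : ℝ) + 1 = ((k + 1 : ℕ) : ℝ) := by push_cast; ring
  rw [this, Real.rpow_neg hx.le, Real.rpow_natCast]

theorem five_fourths {d : ℝ} (hd : 0 < d) (k : ℕ) :
    ((5 / 4) * d) ^ (-((k : ℝ) + 1)) = (d ^ (k + 1))⁻¹ * (4 / 5) ^ (k + 1) := by
  rw [rpow_neg_succ' (by positivity), mul_pow, mul_inv, mul_comm, ← inv_pow (5 / 4 : ℝ)]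
  norm_num

theorem card_le_of_prime {r : ℕ} (S : Finset (DirichletCharacter ℂ r)) [NeZero r] :
    (S.card : ℝ) ≤ r := by
  have h : S.card ≤ r := by
    calc S.card ≤ (Finset.univ : Finset (DirichletCharacter ℂ r)).card :=
          Finset.card_le_card (Finset.subset_univ S)
      _ = r.totient := by
        rw [Finset.card_univ, ← Nat.card_eq_fintype_card]
        exact DirichletCharacter.card_eq_totient_of_hasEnoughRootsOfUnity ℂ r
      _ ≤ r := Nat.totient_le r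
  exact_mod_cast h

theorem est_t1 {y r c : ℝ} (hr0 : 0 ≤ r) (hr : r ≤ Real.exp y) (hc : 0 ≤ c) :
    r * (c * y * Real.exp (-(10 * y))) ≤ c * Real.exp (-(8 * y)) := by
  have hyexp : y ≤ Real.exp y := by
    have := Real.add_one_le_exp y
    linarith
  calc r * (c * y * Real.exp (-(10 * y))) ≤ r * (c * Real.exp y * Real.exp (-(10 * y))) := by gcongr
    _ ≤ Real.exp y * (c * Real.exp y * Real.exp (-(10 * y))) := by gcongr
    _ = c * (Real.exp y * Real.exp y * Real.exp (-(10 * y))) := by ring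
    _ = _ := by
        rw [← Real.exp_add, ← Real.exp_add]
        congr 2
        ring

theorem est_g {y l : ℝ} (hy : 0 ≤ y) (hl : 1 ≤ l) :
    Real.exp (-(2 * y)) ≤ Real.exp (-(2 * y / l ^ 2)) := by
  have hl2 : y / l ^ 2 ≤ y := by
    apply div_le_self hy
    nlinarith
  apply Real.exp_le_exp.2
  have : 2 * y / l ^ 2 = 2 * (y / l ^ 2) := by ring
  linarith

theorem est_t1a {y l c : ℝ} (hy : 2 ≤ y) (hl : 1 ≤ l) (hc : 8 * c ≤ Real.exp y) :
    c * Real.exp (-(8 * y)) ≤ Real.exp (-(2 * y / l ^ 2)) / 8 := by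
  have h1 : c * Real.exp (-(8 * y)) ≤ Real.exp y / 8 * Real.exp (-(8 * y)) := by
    gcongr
    linarith
  refine h1.trans ?_
  have h2 : Real.exp y / 8 * Real.exp (-(8 * y)) = Real.exp (-(7 * y)) / 8 := by
    rw [div_mul_eq_mul_div, ← Real.exp_add]
    congr 2
    ring
  rw [h2]
  have h3 : Real.exp (-(7 * y)) ≤ Real.exp (-(2 * y)) := Real.exp_le_exp.2 (by linarith)
  have := est_g (y := y) (by linarith) hl
  linarith

theorem exp_neg_three : Real.exp (-3) ≤ 1 / 4 := by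
  rw [Real.exp_neg]
  have := Real.add_one_le_exp (3 : ℝ)
  rw [inv_le_comm₀ (Real.exp_pos _) (by norm_num)]
  linarith

theorem est_rC {y l : ℝ} (hy : 2 ≤ y) (hl : 1 ≤ l) :
    Real.exp (-(25 * y)) ≤ Real.exp (-(2 * y / l ^ 2)) / 4 := by
  have h4 : Real.exp (-(25 * y)) = Real.exp (-(2 * y)) * Real.exp (-(23 * y)) := by
    rw [← Real.exp_add]
    congr 1
    ring
  have h6 : Real.exp (-(23 * y)) ≤ Real.exp (-3) := Real.exp_le_exp.2 (by linarith)
  have h7 := exp_neg_three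
  have h8 := est_g (y := y) (by linarith) hl
  have h9 : Real.exp (-(2 * y)) * Real.exp (-(23 * y)) ≤ Real.exp (-(2 * y / l ^ 2)) * (1 / 4) := by
    apply mul_le_mul h8 (by linarith) (Real.exp_pos _).le (Real.exp_pos _).le
  rw [h4]
  linarith

theorem rpow_neg_le {r : ℕ} (hr : 1 ≤ r) {C : ℝ} (hC : 50 ≤ C) (hy : 2 ≤ LL r) :
    (r : ℝ) ^ (-C) ≤ Real.exp (-(25 * LL r)) := by
  have h1 : (0 : ℝ) < r := by exact_mod_cast hr
  rw [Real.rpow_def_of_pos h1]
  apply Real.exp_le_exp.2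
  have h2 : Real.log r = LL r - 1 := by rw [LL]; ring
  rw [h2]
  nlinarith

/-- the sum of the small terms -/
theorem est_t2 {a c₁ l y B D E C K : ℝ} (ha : 0 < a) (hc1 : 0 < c₁) (hl : 1 ≤ l) (hy : 1 ≤ y)
    (hE0 : 0 ≤ E) (hD : 1024 * E * (a / c₁) ^ 4 ≤ D)
    (hE3 : D * y ^ (B + 1) * l ^ 4 ≤ Real.exp (y / l ^ 2))
    (hC : 24 * a ^ 2 / c₁ ^ 2 ≤ C) (hK : C * y ≤ K) :
    y ^ B * (E * y * (128 / ((c₁ / y / (a * l / y)) ^ 2) ^ 2 *
      Real.exp (-(K * (c₁ / y / (a * l / y)) ^ 2 / 8)))) ≤ Real.exp (-(2 * y / l ^ 2)) / 8 := by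
  have hu : c₁ / y / (a * l / y) = c₁ / (a * l) := by field_simp
  rw [hu]
  have h1 : Real.exp (-(K * (c₁ / (a * l)) ^ 2 / 8)) ≤ Real.exp (-(3 * (y / l ^ 2))) := by
    apply Real.exp_le_exp.2
    rw [div_pow]
    have h2 : 24 * a ^ 2 / c₁ ^ 2 * y ≤ K := by
      have : 24 * a ^ 2 / c₁ ^ 2 * y ≤ C * y := by
        apply mul_le_mul_of_nonneg_right hC (by linarith)
      linarith
    have h3 : 3 * (y / l ^ 2) = (24 * a ^ 2 / c₁ ^ 2 * y) * (c₁ ^ 2 / (a * l) ^ 2) / 8 := by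
      field_simp
      ring
    rw [h3]
    have h4 : 0 ≤ c₁ ^ 2 / (a * l) ^ 2 := by positivity
    have := mul_le_mul_of_nonneg_right h2 h4
    linarith
  have h2 : 128 / ((c₁ / (a * l)) ^ 2) ^ 2 = 128 * (a / c₁) ^ 4 * l ^ 4 := by
    field_simp
  have h3 : y ^ B * y = y ^ (B + 1) := by
    rw [Real.rpow_add (by linarith), Real.rpow_one]
  have h5 : 1024 * E * (a / c₁) ^ 4 * y ^ (B + 1) * l ^ 4 ≤ Real.exp (y / l ^ 2) := by
    refine le_trans ?_ hE3
    gcongr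
  calc y ^ B * (E * y * (128 / ((c₁ / (a * l)) ^ 2) ^ 2 *
          Real.exp (-(K * (c₁ / (a * l)) ^ 2 / 8)))) =
        E * (y ^ B * y) * (128 / ((c₁ / (a * l)) ^ 2) ^ 2) *
          Real.exp (-(K * (c₁ / (a * l)) ^ 2 / 8)) := by ring
    _ = (1024 * E * (a / c₁) ^ 4 * y ^ (B + 1) * l ^ 4) / 8 *
          Real.exp (-(K * (c₁ / (a * l)) ^ 2 / 8)) := by rw [h2, h3]; ring
    _ ≤ Real.exp (y / l ^ 2) / 8 * Real.exp (-(3 * (y / l ^ 2))) := by gcongr
    _ = Real.exp (-(2 * y / l ^ 2)) / 8 := by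
        rw [div_mul_eq_mul_div, ← Real.exp_add]
        congr 2
        ring

/-- numbers in the case of a zero extremely close to `1` -/
theorem est_low {y c c₂ r e : ℝ} (hy : 2 ≤ y) (hr0 : 0 < r) (hr : r ≤ Real.exp y) (hc : 1 ≤ c)
    (hc2 : 0 < c₂) (hDa : 8 * c ≤ Real.exp y) (hDb : 4 * c / c₂ ^ 2 ≤ Real.exp y)
    (he : e = min 1 (c₂ / r ^ 2)) :
    Real.exp (-(25 * y)) ≤ e ^ 2 / 4 ∧ c * Real.exp (-(8 * y)) ≤ e ^ 2 / 4 := by
  have h5 : Real.exp (-(25 * y)) ≤ c * Real.exp (-(8 * y)) := by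
    have h6 : Real.exp (-(25 * y)) ≤ Real.exp (-(8 * y)) := Real.exp_le_exp.2 (by linarith)
    have h7 : 1 * Real.exp (-(8 * y)) ≤ c * Real.exp (-(8 * y)) := by gcongr
    linarith
  suffices h : c * Real.exp (-(8 * y)) ≤ e ^ 2 / 4 from ⟨h5.trans h, h⟩
  rcases le_total 1 (c₂ / r ^ 2) with h | h
  · have hee : e = 1 := by rw [he, min_eq_left h]
    rw [hee]
    have h2 : Real.exp (-(7 * y)) ≤ Real.exp (-3) := Real.exp_le_exp.2 (by linarith)
    have h3 := exp_neg_three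
    have h4 : c * Real.exp (-(8 * y)) ≤ Real.exp y * Real.exp (-(8 * y)) := by
      gcongr
      linarith
    have h5 : Real.exp y * Real.exp (-(8 * y)) = Real.exp (-(7 * y)) := by
      rw [← Real.exp_add]
      congr 1
      ring
    linarith
  · have hee : e = c₂ / r ^ 2 := by rw [he, min_eq_right h]
    have h2 : c₂ ^ 2 * Real.exp (-(4 * y)) ≤ e ^ 2 := by
      rw [hee, div_pow, ← pow_mul, div_eq_mul_inv]
      have h3 : r ^ (2 * 2) ≤ Real.exp (4 * y) := by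
        calc r ^ (2 * 2) ≤ (Real.exp y) ^ (2 * 2) := by gcongr
          _ = Real.exp (4 * y) := by
            rw [← Real.exp_nat_mul]
            push_cast
            ring_nf
      rw [Real.exp_neg]
      gcongr
    have h3 : 4 * c ≤ c₂ ^ 2 * Real.exp y := by
      rw [div_le_iff₀ (by positivity)] at hDb
      linarith
    have h4 : 4 * (c * Real.exp (-(8 * y))) ≤ c₂ ^ 2 * Real.exp (-(4 * y)) := by
      calc 4 * (c * Real.exp (-(8 * y))) = 4 * c * Real.exp (-(8 * y)) := by ring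
        _ ≤ c₂ ^ 2 * Real.exp y * Real.exp (-(8 * y)) := by gcongr
        _ = c₂ ^ 2 * Real.exp (-(7 * y)) := by
            rw [mul_assoc, ← Real.exp_add]
            congr 2
            ring
        _ ≤ c₂ ^ 2 * Real.exp (-(4 * y)) := by
            have : Real.exp (-(7 * y)) ≤ Real.exp (-(4 * y)) := Real.exp_le_exp.2 (by linarith)
            gcongr
    linarith

/-- first case: one exceptional character -/
theorem case1 {r : ℕ} [NeZero r] (S : Finset (DirichletCharacter ℂ r))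
    (χ₁ : DirichletCharacter ℂ r) {f : DirichletCharacter ℂ r → ℝ} {M e t q : ℝ} (hM : 0 ≤ M)
    (he : 0 ≤ e) (he1 : e ≤ 1) (ht : 0 ≤ t) (h1 : f χ₁ ≤ M * (1 - e ^ 2 / 2) + M * t)
    (h2 : ∀ χ ∈ S, χ ≠ χ₁ → f χ ≤ M * t) (h3 : r * t ≤ e ^ 2 / 4) (h4 : q ≤ e ^ 2 / 4) :
    ∑ χ ∈ S, f χ ≤ M * (1 - q) := by
  classical
  have hcard := card_le_of_prime S
  have h1e : 0 ≤ 1 - e ^ 2 / 2 := by nlinarith
  have hsum : ∑ χ ∈ S, f χ ≤ M * (1 - e ^ 2 / 2) + r * (M * t) := by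
    calc ∑ χ ∈ S, f χ ≤ ∑ χ ∈ S, ((if χ = χ₁ then M * (1 - e ^ 2 / 2) else 0) + M * t) := by
          refine Finset.sum_le_sum fun χ hχ => ?_
          by_cases h : χ = χ₁
          · rw [if_pos h, h]
            exact h1
          · rw [if_neg h, zero_add]
            exact h2 χ hχ h
      _ = (∑ χ ∈ S, (if χ = χ₁ then M * (1 - e ^ 2 / 2) else 0)) + S.card * (M * t) := by
          rw [Finset.sum_add_distrib, Finset.sum_const, nsmul_eq_mul]
      _ ≤ M * (1 - e ^ 2 / 2) + r * (M * t) := by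
          apply add_le_add
          · rw [Finset.sum_ite_eq']
            split_ifs
            · exact le_rfl
            · positivity
          · have : 0 ≤ M * t := by positivity
            gcongr
  refine hsum.trans ?_
  have h2 : M * (1 - e ^ 2 / 2) + r * (M * t) = M * (1 - e ^ 2 / 2 + r * t) := by ring
  rw [h2]
  apply mul_le_mul_of_nonneg_left _ hM
  linarith

/-- second case -/
theorem case2 {r : ℕ} (hr : r.Prime) [NeZero r] (S S₁ : Finset (DirichletCharacter ℂ r))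
    (hS : ∀ χ ∈ S, χ ≠ 1) {f : DirichletCharacter ℂ r → ℝ} {M g t t' q w : ℝ} (hM : 0 ≤ M)
    (hg1 : g ≤ 1) (ht : 0 ≤ t) (ht' : 0 ≤ t') (hw : (S₁.card : ℝ) ≤ w)
    (h1 : ∀ χ ∈ S, χ ∈ S₁ → χ ^ 2 = 1 → f χ ≤ M * (1 - g / 2) + M * t')
    (h2 : ∀ χ ∈ S, χ ∈ S₁ → χ ^ 2 ≠ 1 → f χ ≤ M * t')
    (h3 : ∀ χ ∈ S, χ ∉ S₁ → f χ ≤ M * t)
    (h4 : r * t ≤ g / 8) (h5 : w * t' ≤ g / 8) (h6 : q ≤ g / 4) :
    ∑ χ ∈ S, f χ ≤ M * (1 - q) := by
  classical
  have hcard := card_le_of_prime S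
  have hg2 : 0 ≤ M * (1 - g / 2) := by
    have : 0 ≤ 1 - g / 2 := by linarith
    positivity
  have hMt : 0 ≤ M * t := by positivity
  have hMt' : 0 ≤ M * t' := by positivity
  have hterm : ∀ χ ∈ S, f χ ≤ (if χ ^ 2 = 1 then M * (1 - g / 2) else 0) +
      (if χ ∈ S₁ then M * t' else 0) + M * t := by
    intro χ hχ
    have hm0 : 0 ≤ (if χ ^ 2 = 1 then M * (1 - g / 2) else 0) := by
      split_ifs
      · exact hg2
      · exact le_rfl
    by_cases h : χ ∈ S₁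
    · rw [if_pos h]
      by_cases hχ2 : χ ^ 2 = 1
      · rw [if_pos hχ2]
        have := h1 χ hχ h hχ2
        linarith
      · have := h2 χ hχ h hχ2
        linarith
    · rw [if_neg h]
      have := h3 χ hχ h
      linarith
  have hreal : (((S.filter fun χ => χ ^ 2 = 1).card : ℕ) : ℝ) ≤ 1 := by
    have : (S.filter fun χ => χ ^ 2 = 1).card ≤ 1 := by
      rw [Finset.card_le_one]
      intro χ hχ χ' hχ'
      rw [Finset.mem_filter] at hχ hχ'
      exact QLC.real_unique hr (hS χ hχ.1) hχ.2 (hS χ' hχ'.1) hχ'.2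
    exact_mod_cast this
  have hsum : ∑ χ ∈ S, f χ ≤ M * (1 - g / 2) + w * (M * t') + r * (M * t) := by
    refine (Finset.sum_le_sum hterm).trans ?_
    rw [Finset.sum_add_distrib, Finset.sum_add_distrib]
    refine add_le_add (add_le_add ?_ ?_) ?_
    · rw [← Finset.sum_filter, Finset.sum_const, nsmul_eq_mul]
      calc _ ≤ 1 * (M * (1 - g / 2)) := mul_le_mul_of_nonneg_right hreal hg2
        _ = _ := one_mul _
    · rw [← Finset.sum_filter, Finset.sum_const, nsmul_eq_mul]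
      have h1 : ((S.filter fun χ => χ ∈ S₁).card : ℝ) ≤ w := by
        refine le_trans ?_ hw
        have : (S.filter fun χ => χ ∈ S₁).card ≤ S₁.card := by
          apply Finset.card_le_card
          intro χ hχ
          exact (Finset.mem_filter.1 hχ).2
        exact_mod_cast this
      gcongr
    · rw [Finset.sum_const, nsmul_eq_mul]
      gcongr
  refine hsum.trans ?_
  have h2 : M * (1 - g / 2) + w * (M * t') + r * (M * t) =
      M * (1 - g / 2 + w * t' + r * t) := by ring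
  rw [h2]
  apply mul_le_mul_of_nonneg_left _ hM
  linarith

/-- **QL2-IA** -/
theorem ia2 (hden : DenStmt) (hrep : RepStmt) (hbnd : BndStmt) (hone : BndOneStmt) : IA2Stmt := by
  classical
  obtain ⟨c₁, hc1, hc1', hzf⟩ := zero_free
  obtain ⟨CA, hCA, hA⟩ := bound_no_zero
  obtain ⟨CO, hCO, hO⟩ := bound_one_zero
  obtain ⟨C1, hC1, hB1⟩ := hbnd
  obtain ⟨C2, hC2, hB2⟩ := hone
  obtain ⟨c₂, hc2, hfar⟩ := zero_far
  refine ⟨1, one_pos, fun a ha _ => ?_⟩
  obtain ⟨B, rD, hden⟩ := hden (2 * a) (by positivity)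
  obtain ⟨rR, hrep⟩ := hrep (2 * a) 1 c₁ (by positivity) one_pos hc1
  obtain ⟨D, hD1, hD2, hD3⟩ : ∃ D : ℝ, 1024 * (C1 + C2) * (a / c₁) ^ 4 ≤ D ∧ 8 * (CA + CO) ≤ D ∧
      4 * (CA + CO) / c₂ ^ 2 ≤ D := by
    refine ⟨max (1024 * (C1 + C2) * (a / c₁) ^ 4) (max (8 * (CA + CO)) (4 * (CA + CO) / c₂ ^ 2)),
      le_max_left _ _, (le_max_left _ _).trans (le_max_right _ _),
      (le_max_right _ _).trans (le_max_right _ _)⟩
  obtain ⟨r₁, hr₁⟩ := Filter.eventually_atTop.1 (ev_all a c₁ B D ha)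
  obtain ⟨C, hC50, hCa⟩ : ∃ C : ℝ, 50 ≤ C ∧ 24 * a ^ 2 / c₁ ^ 2 ≤ C :=
    ⟨max 50 (24 * a ^ 2 / c₁ ^ 2), le_max_left _ _, le_max_right _ _⟩
  refine ⟨C, max r₁ (max rD rR), by linarith, fun r hr hr0 k hk S hS => ?_⟩
  have : NeZero r := ⟨hr.ne_zero⟩
  obtain ⟨hr1, hE1, hE2, hE3, hE4, hE5⟩ := hr₁ r ((le_max_left _ _).trans hr0)
  have hrD : rD ≤ r := ((le_max_left _ _).trans (le_max_right _ _)).trans hr0
  have hrR : rR ≤ r := ((le_max_right _ _).trans (le_max_right _ _)).trans hr0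
  have hLL : 1 ≤ LL r := by linarith
  have hlam : 1 ≤ lam r := by
    have := Real.log_nonneg hLL
    unfold lam
    linarith
  have hr' : (r : ℝ) ≤ Real.exp (LL r) := by
    have h1 : (0 : ℝ) < r := by exact_mod_cast hr.pos
    rw [LL, ← Real.log_le_iff_le_exp h1]
    linarith
  have hrC := rpow_neg_le hr1 hC50 hE5
  have hrr0 : (0 : ℝ) < r := by exact_mod_cast hr.pos
  have hdena := hden r hr hrD
  have hrepa := hrep r hr hrR
  have hzfa := hzf r
  have hfara := hfar r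
  have hAa := hA r
  have hOa := hO r
  have hB1a := hB1 r
  have hB2a := hB2 r
  clear hden hrep hzf hfar hA hO hB1 hB2 hr₁
  generalize LL r = y at *
  generalize lam r = l at *
  have hy0 : 0 < y := by linarith
  have hl0 : 0 < l := by linarith
  have hdA : 2 * a * l / y = 2 * (a * l / y) := by ring
  have hρd : c₁ / y ≤ a * l / y := by gcongr
  have ht2 := est_t2 (B := B) (K := (k : ℝ) + 1) ha hc1 hlam hLL (show 0 ≤ C1 + C2 by linarith) hD1
    hE3 hCa (by linarith)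
  have hd0 : 0 < a * l / y := by positivity
  rw [hdA] at hdena hrepa
  generalize a * l / y = d at *
  have hρ0 : 0 < c₁ / y := by positivity
  have hk1 : 1 ≤ k := by
    have h1 : (1 : ℝ) ≤ k := by nlinarith
    exact_mod_cast h1
  rw [rpow_neg_succ' hd0]
  have h45 : ((4 : ℝ) / 5) ^ (k + 1) ≤ Real.exp (-(10 * y)) :=
    four_fifths hC50 hy0.le hk
  have hT1 := est_t1 (c := CA + CO) hrr0.le hr' (by linarith)
  have hgain := gain_term hd0 hρ0 hρd k
  generalize ht1 : (CA + CO) * y * Real.exp (-(10 * y)) = t₁ at *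
  generalize ht2e : (C1 + C2) * y * (128 / ((c₁ / y / d) ^ 2) ^ 2 *
    Real.exp (-(((k : ℝ) + 1) * (c₁ / y / d) ^ 2 / 8))) = t₂ at *
  have hM0 : 0 < (d ^ (k + 1))⁻¹ := by positivity
  have ht10 : 0 ≤ t₁ := by rw [← ht1]; positivity
  have ht20 : 0 ≤ t₂ := by rw [← ht2e]; positivity
  have ht1' : ∀ c : ℝ, 0 ≤ c → c ≤ CA + CO →
      c * y * ((5 / 4) * d) ^ (-((k : ℝ) + 1)) ≤ (d ^ (k + 1))⁻¹ * t₁ := by
    intro c hc0 hc
    rw [five_fourths hd0, ← ht1]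
    calc c * y * ((d ^ (k + 1))⁻¹ * (4 / 5) ^ (k + 1)) =
        (d ^ (k + 1))⁻¹ * (c * y * (4 / 5) ^ (k + 1)) := by ring
      _ ≤ (d ^ (k + 1))⁻¹ * ((CA + CO) * y * Real.exp (-(10 * y))) := by gcongr
  have hnz : ∀ χ : DirichletCharacter ℂ r, χ ≠ 1 →
      (∀ ρ : ℂ, ‖ρ - 1‖ < 2 * d → LFunction χ ρ ≠ 0) → ‖Schi χ k d‖ ≤ (d ^ (k + 1))⁻¹ * t₁ := by
    intro χ hχ hz
    exact (hAa χ hχ d (2 * d) hd0 (by linarith) le_rfl hz k).trans
      (ht1' CA (by linarith) (by linarith))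
  have ht2' : ∀ c : ℝ, 0 ≤ c → c ≤ C1 + C2 →
      c * y * ((k : ℝ) + 1) ^ 2 / Real.sqrt (d ^ 2 + (c₁ / y) ^ 2) ^ (k + 1) ≤
        (d ^ (k + 1))⁻¹ * t₂ := by
    intro c hc0 hc
    have h2 : 0 ≤ ((k : ℝ) + 1) ^ 2 / Real.sqrt (d ^ 2 + (c₁ / y) ^ 2) ^ (k + 1) := by positivity
    rw [← ht2e]
    calc c * y * ((k : ℝ) + 1) ^ 2 / Real.sqrt (d ^ 2 + (c₁ / y) ^ 2) ^ (k + 1) =
        c * y * (((k : ℝ) + 1) ^ 2 / Real.sqrt (d ^ 2 + (c₁ / y) ^ 2) ^ (k + 1)) := by ring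
      _ ≤ (C1 + C2) * y * ((d ^ (k + 1))⁻¹ * (128 / ((c₁ / y / d) ^ 2) ^ 2 *
          Real.exp (-(((k : ℝ) + 1) * (c₁ / y / d) ^ 2 / 8)))) := by
        apply mul_le_mul _ hgain h2 (by positivity)
        gcongr
      _ = _ := by ring
  have hT1a : (r : ℝ) * t₁ ≤ Real.exp (-(2 * y / l ^ 2)) / 8 :=
    hT1.trans (est_t1a hE5 hlam (hD2.trans hE4))
  have hq := hrC.trans (est_rC hE5 hlam)
  by_cases hex : ∃ χ₁ : DirichletCharacter ℂ r, χ₁ ≠ 1 ∧ χ₁ ^ 2 = 1 ∧ ∃ β : ℂ,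
      LFunction χ₁ β = 0 ∧ ‖β - 1‖ ≤ Real.exp (-(1 * y / l ^ 2)) ∧ ‖β - 1‖ < c₁ / y
  · -- a zero extremely close to `1`
    obtain ⟨χ₁, h11, h12, β, hβ, hβ1, hβ2⟩ := hex
    have hrep' := hrepa χ₁ h11 h12 β hβ hβ1
    have hβ8 : ‖β - 1‖ < 1 / 8 := by
      refine hβ2.trans_le ?_
      rw [div_le_iff₀ (by linarith)]
      linarith
    have hfar' := hfara χ₁ h11 h12 β hβ8 hβ
    obtain ⟨e, he⟩ : ∃ e : ℝ, e = min 1 (c₂ / (r : ℝ) ^ 2) := ⟨_, rfl⟩
    have he1 : e ≤ 1 := by rw [he]; exact min_le_left _ _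
    have he2 : e ≤ ‖β - 1‖ := by rw [he]; exact (min_le_right _ _).trans hfar'
    have he0 : 0 < e := by rw [he]; positivity
    have hlow := est_low hE5 hrr0 hr' (by linarith) hc2 (hD2.trans hE4) (hD3.trans hE4) he
    refine case1 S χ₁ hM0.le he0.le he1 ht10 ?_ ?_ (hT1.trans hlow.2) (hrC.trans hlow.1)
    · have h1 := hOa χ₁ h11 d (2 * d) hd0 (by linarith) le_rfl (by linarith) β
        (by linarith) hβ (by
          intro b hb hb0
          have hLb : LFunction χ₁ b = 0 := by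
            have h2 := sub_smul_dslope (LFunction χ₁) β b
            rw [hb0, smul_zero, hβ, sub_zero] at h2
            exact h2.symm
          have h3 := (hrep' χ₁ h11 b hb hLb).2
          exact (hzfa χ₁ h11).2 β hβ2 hβ b h3 hb0) k
      exact h1.trans (add_le_add (main_term hd0 (by linarith) (zero_re_lt h11 hβ) he0.le he2 he1 k hk1)
        (ht1' CO (by linarith) (by linarith)))
    · intro χ hχ hne
      refine hnz χ (hS χ hχ) fun ρ hρ hL => hne ?_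
      exact (hrep' χ (hS χ hχ) ρ hρ hL).1
  · push Not at hex
    obtain ⟨e, he⟩ : ∃ e : ℝ, e = Real.exp (-(1 * y / l ^ 2)) := ⟨_, rfl⟩
    have he0 : 0 < e := by rw [he]; exact Real.exp_pos _
    have hle : ∀ x : ℝ, 0 ≤ x → Real.exp (-x) ≤ 1 := fun x hx =>
      Real.exp_le_one_iff.2 (by linarith)
    have he1 : e ≤ 1 := by
      rw [he]
      exact hle _ (by positivity)
    have hee : e ^ 2 = Real.exp (-(2 * y / l ^ 2)) := by
      rw [he, ← Real.exp_nat_mul]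
      congr 1
      push_cast
      ring
    refine case2 hr S (S.filter fun χ => ∃ ρ : ℂ, ‖ρ - 1‖ < 2 * d ∧ LFunction χ ρ = 0) hS hM0.le
      (hle _ (by positivity)) ht10 ht20 (w := y ^ B) ?_ ?_ ?_ ?_ hT1a ht2 hq
    · refine hdena _ fun χ hχ => ?_
      rw [Finset.mem_filter] at hχ
      exact ⟨hS χ hχ.1, hχ.2⟩
    · intro χ hχ _ hχ2
      have hχ1 := hS χ hχ
      by_cases hz : ∃ z : ℂ, ‖z - 1‖ < c₁ / y ∧ LFunction χ z = 0
      · obtain ⟨z, hz1, hz2⟩ := hz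
        have h1 := hB2a χ hχ1 d (c₁ / y) hd0 (by linarith) hρ0 (by linarith) z hz1 hz2
          ((hzfa χ hχ1).2 z hz1 hz2) k
        have h2 : e ≤ ‖z - 1‖ := by
          by_contra hlt
          push Not at hlt
          have := hex χ hχ1 hχ2 z hz2 (by rw [← he]; exact hlt.le)
          linarith
        have h3 := main_term hd0 (by linarith) (zero_re_lt hχ1 hz2) he0.le h2 he1 k hk1
        rw [hee] at h3
        have h4 := ht2' C2 (by linarith) (by linarith)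
        linarith
      · push Not at hz
        have h1 := hB1a χ hχ1 d (c₁ / y) hd0 (by linarith) hρ0 (by linarith) hz k
        have h4 := ht2' C1 (by linarith) (by linarith)
        have h5 : 0 ≤ (d ^ (k + 1))⁻¹ * (1 - Real.exp (-(2 * y / l ^ 2)) / 2) := by
          have := hle (2 * y / l ^ 2) (by positivity)
          have h6 : 0 ≤ 1 - Real.exp (-(2 * y / l ^ 2)) / 2 := by linarith
          positivity
        linarith
    · intro χ hχ _ hχ2
      have hχ1 := hS χ hχ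
      have h1 := hB1a χ hχ1 d (c₁ / y) hd0 (by linarith) hρ0 (by linarith)
        ((hzfa χ hχ1).1 hχ2) k
      exact h1.trans (ht2' C1 (by linarith) (by linarith))
    · intro χ hχ h
      refine hnz χ (hS χ hχ) fun ρ hρ hL => h ?_
      rw [Finset.mem_filter]
      exact ⟨hχ, ρ, hρ, hL⟩

end Vale.Agent.P319.SC.QL.H884
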